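import Vale.Agent.P092SL.Lim
import Vale.Agent.P092ST.Blocks

/-!
P092 (helper22), block B3: level zero, the recursion and the strong tails.
-/

set_option linter.all false

open scoped InnerProductSpace ENNReal ComplexConjugate
open MeasureTheory Filter Topology

namespace Vale.Agent.P092SL

open Vale.Agent.P092ST Vale.Agent.P092ST.Amb

variable {G Γ 𝒦 : Type} [Group G] [TopologicalSpace G] [Group Γ] [NormedAddCommGroup 𝒦]
  [InnerProductSpace ℂ 𝒦] [CompleteSpace 𝒦] {A : Amb G Γ 𝒦}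

/-- letters of arbitrary precision -/
theorem exists_two (hK : A.Kap) {ω : 𝒦 →L[ℂ] 𝒦} (hω : A.Iso ω) (g : G) {ε : ℝ} (hε : 0 < ε) :
    ∃ J x, A.Two ω x g ε ∧ A.Band J x := by
  obtain ⟨J, a, da, ba, na, ea⟩ := hK g (ω * A.V g) (hω.degV g) (by
    rw [star_mul, A.V_star, mul_assoc, hω.iso', p_mul_V, V_inv_mul]) _ (half_pos hε)
  obtain ⟨J', a', da', ba', na', ea'⟩ := hK 1 ω hω.deg hω.iso _ (half_pos hε)
  have e1 : a * A.V 1 * star a' - A.ζ ω g =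
      (a - ω * A.V g) * A.V 1 * star a' + ω * A.V g * star ((a' - ω) * A.V 1) := by
    have e2 : A.V g * star ω = A.V g * (A.V 1 * star ω) := by rw [hω.row]
    rw [star_mul, star_p, star_sub, ζ, mul_assoc ω (A.V g) (star ω), e2]
    noncomm_ring
  have d1 := (da.sub (hω.degV g)).mul1 (deg_V 1)
  have d2 := (da'.sub hω.deg).mul1 (deg_V 1)
  have s1 := hs_col (col_p (A := A) (a - ω * A.V g) 1)
  have s2 := hs_col (col_p (A := A) (a' - ω) 1)
  have t1 := s1.mul_right d1 da'.star1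
  have t2 := (s2.star d2).mul (ω * A.V g)
  refine ⟨J + J', a * A.V 1 * star a', ⟨(da.mul1 (deg_V 1)).mul1 da'.star1,
    norm_mul_le1 (norm_mul_le1 na norm_p) (by rwa [norm_star]), e1 ▸ t1.add t2, ?_⟩,
    (ba.mul0 band_p).mul ba'.star⟩
  have b1 := s1.hs_mul_right1 d1 da'.star1 (by rwa [norm_star])
  have b2 := (s2.star d2).hs_mul1 (norm_mul_le1 hω.nrm (norm_V (A := A) g))
  rw [s2.hs_star d2] at b2
  rw [hs_eq_n2 (col_p _ _), n2_p] at b1 b2
  rw [e1]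
  have b3 : A.n2 (a - ω * A.V g) ≤ ε / 2 := ea
  have b4 : A.n2 (a' - ω) ≤ ε / 2 := ea'
  exact (t1.hs_add t2).trans (by linarith)

/-- level zero -/
theorem lev_zero {ρ : G → ℝ} (hρ : ∀ v, 0 ≤ ρ v) (h0 : A.L0 ρ) (hK : A.Kap) (b : G) {ε : ℝ}
    (hε : 0 < ε) : ∃ ω w C, A.Iso w ∧ (∀ X, w * A.Pj X = A.Pj X * w) ∧ A.n2 (ω - w) ≤ ε ∧
      ∀ l J₀ : ℝ, C ≤ l → 0 ≤ l → 0 ≤ J₀ → ∃ y J, J₀ ≤ J ∧
        A.Lev ρ b ω (A.e 1) y (Real.exp (-8 * l)) J (Real.exp l) := by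
  obtain ⟨ω, w, C, dω, dw, iω, iw, pw, cl, lip⟩ := h0 ε hε
  have iso : ∀ {x}, A.Deg 1 x → star x * x = A.V 1 → A.Iso (A.e 0 * x) := fun {x} d i =>
    ⟨(deg_e 0).mul1 d, by rw [star_mul, mul_assoc, ← mul_assoc (star (A.e 0)), A.e_iso, one_mul, i]⟩
  have hω := iso dω iω
  refine ⟨A.e 0 * ω, A.e 0 * w, C, iso dw iw, fun X => by
    rw [mul_assoc, pw, ← mul_assoc, A.Pj_e, mul_assoc], ?_, fun l J₀ hC hl hJ => ?_⟩
  · rw [← mul_sub]; exact (n2_mul1 (norm_e 0) _).trans cl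
  obtain ⟨J, x, h1, h2⟩ := exists_two hK hω b (ε := Real.exp (-8 * l) / 15) (by positivity)
  have h3 : Real.exp (-8 * l) ≤ 1 := Real.exp_le_one_iff.2 (by linarith)
  obtain ⟨y, h4, h5⟩ := exists_let hω h1 (by linarith) (h2.mono (le_max_left J J₀))
    (hJ.trans (le_max_right _ _))
  rw [mul_div_cancel₀ _ (by norm_num)] at h4
  refine ⟨y, 3 * max J J₀, by linarith [le_max_right J J₀], hω,
    ⟨deg_e 1, A.e_iso 1, A.e_SH 1, fun X => A.Pj_e X 1⟩,
    by rw [← mul_assoc, A.e_orth 1 0 one_ne_zero, zero_mul], h4, h5, fun v => ?_⟩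
  rw [df, ← mul_assoc, A.e_SH, mul_assoc, mul_assoc, ← mul_sub]
  exact (n2_mul1 (norm_e 0) _).trans ((lip v).trans (mul_le_mul_of_nonneg_right
    (by linarith [Real.add_one_le_exp l]) (hρ v)))

/-- the approximant of a word -/
theorem exists_word {ρ : G → ℝ} (hρ : ∀ v, ρ v⁻¹ = ρ v) {b : G} {ω f y : 𝒦 →L[ℂ] 𝒦} {ε J C t : ℝ}
    (h : A.Lev ρ b ω f y ε J C) (hJ : 0 ≤ J) (hC : 0 ≤ C) (ht : C * t ≤ ε) {m : ℕ} (r : ℕ)
    (w : List (G × Bool)) (hm : w.length ≤ m)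
    (hw : ∀ a ∈ w, ρ ((sg b a.2 ^ r)⁻¹ * a.1 * sg b a.2 ^ r) ≤ t) :
    ∃ x, A.Two ω x (wp w) ((2 + m * (2 * r + 1)) * ε) ∧ A.Band ((2 + m * (2 * r + 1)) * J) x := by
  have o := h.let'.two.one h.iso
  have h1 := one_Mw h.iso o r 1 w fun u hu => by
    have e : ρ (sv b r 1 u) ≤ t := by rw [sv, one_mul]; exact hw u hu
    refine ⟨deg_SH _, norm_SH _, (h.lip _).trans ((mul_le_mul_of_nonneg_left e hC).trans ht), ?_⟩
    rw [A.SH_star]
    exact (h.lip _).trans (by rw [hρ]; exact (mul_le_mul_of_nonneg_left e hC).trans ht)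
  have h2 : ((w.length * (2 * r + 1) : ℕ) : ℝ) ≤ m * (2 * r + 1) := by
    exact_mod_cast Nat.mul_le_mul_right _ hm
  refine ⟨y * star y * A.Mw b y r 1 w, (((h.let'.two.mul_one h.iso o.star).mul_one h.iso h1).cast
    (by group)).mono ?_, ((h.band.mul h.band.star).mul (band_Mw h.band hJ r 1 w)).mono ?_⟩
  · nlinarith [o.nonneg]
  · nlinarith

/-- **The recursion and the limit.** -/
theorem lim [MeasurableSpace G] {μ : Measure G} (D : Dyn G μ) (h0 : A.L0 D.ρ) (hK : A.Kap)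
    (hU : A.Up D.ρ D.b) : A.Tails := by
  obtain ⟨κ, e0, hκ, he0, hU⟩ := hU
  obtain ⟨ω₀, w, C, hw, pw, cl, hz⟩ := lev_zero D.ρ_nonneg h0 hK D.b (half_pos he0)
  have t8 : Tendsto (fun l : ℝ => Real.exp (l / 8)) atTop atTop :=
    Real.tendsto_exp_atTop.comp (tendsto_id.atTop_div_const (by norm_num))
  obtain ⟨l, hlC, hl1, hl2, hl3, hl4⟩ : ∃ l : ℝ, C ≤ l ∧ 8 ≤ l ∧ κ ^ 7 ≤ Real.exp (l / 8) ∧
      κ ≤ Real.exp l / l ^ 7 ∧ Real.exp (-l) ≤ e0 / 4 :=
    ((eventually_ge_atTop C).and ((eventually_ge_atTop 8).and ((t8.eventually_ge_atTop _).and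
      (((Real.tendsto_exp_div_pow_atTop 7).eventually_ge_atTop κ).and
        (Real.tendsto_exp_neg_atTop_nhds_zero.eventually (Iic_mem_nhds (by linarith))))))).exists
  obtain ⟨y₀, J₀, hJ₀, hL₀⟩ := hz l κ hlC (by linarith) (by linarith)
  let L : ℕ → ℝ := fun k => l * (9 / 8) ^ k
  let Λ : ℕ → ℝ := fun k => l * κ ^ k
  let J : ℕ → ℝ := fun k => Nat.rec J₀ (fun k J => κ * Λ k ^ 7 * J) k
  have Js : ∀ k, J (k + 1) = κ * Λ k ^ 7 * J k := fun _ => rfl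
  have L1 : ∀ k : ℕ, l + l / 8 * k ≤ L k := fun k => by
    have h1 := one_add_mul_le_pow (show (-2 : ℝ) ≤ 1 / 8 by norm_num) k
    rw [show (1 : ℝ) + 1 / 8 = 9 / 8 by norm_num] at h1
    have h2 := mul_le_mul_of_nonneg_left h1 (show 0 ≤ l by linarith)
    simp only [L]
    linarith
  have L2 : ∀ k : ℕ, l + k ≤ L k := fun k => by
    nlinarith [L1 k, Nat.cast_nonneg (α := ℝ) k]
  have L3 : ∀ k, 8 ≤ L k := fun k => by linarith [L2 k, Nat.cast_nonneg (α := ℝ) k]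
  have LΛ : ∀ k, L k ≤ Λ k := fun k =>
    mul_le_mul_of_nonneg_left (pow_le_pow_left₀ (by norm_num) (by linarith) k) (by linarith)
  have Λ1 : ∀ k, 1 ≤ Λ k := fun k => by linarith [L3 k, LΛ k]
  have Λ7 : ∀ k, Λ k ≤ κ * Λ k ^ 7 := fun k => by
    nlinarith [le_self_pow₀ (Λ1 k) (show 7 ≠ 0 by norm_num), Λ1 k]
  have Jκ : ∀ k, κ ≤ J k := fun k => by
    induction k with
    | zero => exact hJ₀
    | succ k ih => rw [Js]; nlinarith [Λ7 k, Λ1 k]
  have Λe : ∀ k, κ * Λ k ^ 7 ≤ Real.exp (L k) := fun k => by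
    refine le_trans ?_ (Real.exp_le_exp.2 (L1 k))
    rw [Real.exp_add, mul_comm (l / 8), Real.exp_nat_mul]
    simp only [Λ]
    rw [mul_pow, ← pow_mul, mul_comm k 7, pow_mul, ← mul_assoc]
    exact mul_le_mul ((le_div_iff₀ (by positivity)).1 hl3) (pow_le_pow_left₀ (by positivity) hl2 k)
      (by positivity) (by positivity)
  have Ls : ∀ k, L (k + 1) = 9 / 8 * L k := fun k => by simp only [L]; ring
  have Λs : ∀ k, Λ (k + 1) = κ * Λ k := fun k => by simp only [Λ]; ring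
  have half : ∀ k, 2 * Real.exp (-L (k + 1)) ≤ Real.exp (-L k) := fun k => by
    have h1 : Real.exp (-L (k + 1) + 1) ≤ Real.exp (-L k) :=
      Real.exp_le_exp.2 (by rw [Ls]; linarith [L3 k])
    rw [Real.exp_add] at h1
    nlinarith [Real.add_one_le_exp (1 : ℝ), Real.exp_pos (-L (k + 1))]
  let P : ℕ → (𝒦 →L[ℂ] 𝒦) × (𝒦 →L[ℂ] 𝒦) × (𝒦 →L[ℂ] 𝒦) → Prop := fun k s =>
    A.Lev D.ρ D.b s.1 s.2.1 s.2.2 (Real.exp (-8 * L k)) (J k) (Real.exp (Λ k)) ∧
      A.n2 (s.1 - w) + 2 * Real.exp (-L k) ≤ e0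
  have step : ∀ k s, P k s → ∃ s', P (k + 1) s' ∧ A.n2 (s'.1 - s.1) ≤ Real.exp (-L k) := by
    rintro k ⟨ω, f, y⟩ ⟨h1, h2⟩
    obtain ⟨ω', f', y', h3, h4⟩ := hU ω f y w (L k) (Λ k) (J k) hw pw h1 (by linarith [L3 k]) (LΛ k)
      (Jκ k) (Λe k) (by linarith [Real.exp_pos (-L k)])
    refine ⟨(ω', f', y'), ⟨?_, ?_⟩, h4⟩
    · rw [Ls, Λs, Js, show -8 * (9 / 8 * L k) = -9 * L k by ring]
      exact h3
    · linarith [n2_tri (A := A) ω' ω w, half k]
  choose nx hn hn' using step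
  have P0 : P 0 (ω₀, A.e 1, y₀) := by
    simp only [P, L, Λ, pow_zero, mul_one]
    exact ⟨hL₀, by linarith⟩
  let s : (k : ℕ) → {s // P k s} := fun k =>
    Nat.rec ⟨_, P0⟩ (fun k s => ⟨nx k s.1 s.2, hn k s.1 s.2⟩) k
  have eL : ∀ k : ℕ, Real.exp (-L k) ≤ Real.exp (-Real.exp (Real.log (9 / 8) * k)) := fun k => by
    rw [mul_comm, Real.exp_nat_mul, Real.exp_log (by norm_num)]
    exact Real.exp_le_exp.2 (neg_le_neg (le_mul_of_one_le_left (by positivity) (by linarith)))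
  set a := l + κ + J₀ with ha
  have a0 : 0 ≤ a := by linarith
  have ea : ∀ x ≤ a, x ≤ Real.exp a := fun x hx => by linarith [Real.add_one_le_exp a]
  have Ja : ∀ k : ℕ, J k ≤ Real.exp (8 * a * (k + 1) ^ 2) := fun k => by
    induction k with
    | zero => exact (ea J₀ (by linarith)).trans (Real.exp_le_exp.2 (by push_cast; linarith))
    | succ k ih =>
      have h1 : Λ k ≤ Real.exp a ^ (k + 1) := by
        rw [pow_succ']
        exact mul_le_mul (ea l (by linarith)) (pow_le_pow_left₀ (by linarith) (ea κ (by linarith)) k)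
          (by positivity) (by positivity)
      have h2 := mul_le_mul (mul_le_mul (ea κ (by linarith))
        (pow_le_pow_left₀ (by linarith [Λ1 k]) h1 7) (by positivity) (by positivity)) ih
        (by linarith [Jκ k]) (by positivity)
      rw [← pow_mul, ← Real.exp_nat_mul, ← Real.exp_add, ← Real.exp_add] at h2
      refine h2.trans (Real.exp_le_exp.2 ?_)
      push_cast
      nlinarith [mul_nonneg a0 (Nat.cast_nonneg (α := ℝ) k)]
  refine tails_of (ω := fun k => (s k).1.1) (fun k => (s k).2.1.iso)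
    (Real.log_pos (show (1 : ℝ) < 9 / 8 by norm_num)) (show 0 < 72 * a + 1 by linarith)
    (Eventually.of_forall fun k => (hn' k (s k).1 (s k).2).trans (eL k)) fun Q hQ => ?_
  obtain ⟨m, R, hR⟩ := D.gen Q hQ
  have hc := D.c_pos
  set M := 2 + m * (2 * ((9 + |R|) / D.c + 1) + 1) with hM
  filter_upwards [tendsto_natCast_atTop_atTop.eventually_ge_atTop M, eventually_ge_atTop 1]
    with k hk hk1 g hg
  obtain ⟨wd, h1, rfl, h3⟩ := hR g hg
  set r := ⌈(9 + |R|) * Λ k / D.c⌉₊ with hr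
  have r1 : (9 + |R|) * Λ k ≤ r * D.c := (div_le_iff₀ hc).1 (Nat.le_ceil _)
  have r2 : (r : ℝ) ≤ ((9 + |R|) / D.c + 1) * Λ k := by
    have h4 := (Nat.ceil_lt_add_one (show 0 ≤ (9 + |R|) * Λ k / D.c by
      have := Λ1 k; positivity)).le
    rw [add_mul, div_mul_eq_mul_div]
    linarith [Λ1 k]
  have r3 : (2 : ℝ) + m * (2 * r + 1) ≤ k * Λ k := by
    refine le_trans ?_ (mul_le_mul_of_nonneg_right hk (by linarith [Λ1 k]))
    have h4 := mul_le_mul_of_nonneg_left (show (2 : ℝ) * r + 1 ≤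
      (2 * ((9 + |R|) / D.c + 1) + 1) * Λ k by nlinarith [Λ1 k]) (Nat.cast_nonneg (α := ℝ) m)
    rw [hM]
    nlinarith [Λ1 k]
  obtain ⟨x, h4, h5⟩ := exists_word D.ρ_inv (s k).2.1 (by linarith [Jκ k]) (Real.exp_pos _).le
    (t := Real.exp (R - D.c * r)) (by
      rw [← Real.exp_add]
      exact Real.exp_le_exp.2 (by nlinarith [LΛ k, Λ1 k, le_abs_self R, abs_nonneg R])) r wd h1
    fun a ha => h3 a ha r
  have k1 : (1 : ℝ) ≤ k := by exact_mod_cast hk1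
  refine ⟨x, h4.mono (le_trans ?_ (eL k)), h5.mono ?_⟩
  · have b1 : (k : ℝ) ≤ Real.exp (L k) := by linarith [Real.add_one_le_exp (L k), L2 k]
    have b2 := mul_le_mul b1 ((Λ7 k).trans (Λe k)) (by linarith [Λ1 k]) (by positivity)
    refine (mul_le_mul_of_nonneg_right (r3.trans b2) (Real.exp_pos _).le).trans ?_
    rw [← Real.exp_add, ← Real.exp_add]
    exact Real.exp_le_exp.2 (by linarith [L3 k])
  · have b1 : (k : ℝ) ≤ Real.exp ((k : ℝ) ^ 2) := by nlinarith [Real.add_one_le_exp ((k : ℝ) ^ 2)]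
    have b2 : Λ k * J k ≤ J (k + 1) := by
      rw [Js]; exact mul_le_mul_of_nonneg_right (Λ7 k) (by linarith [Jκ k])
    have b3 := mul_le_mul b1 (b2.trans (Ja (k + 1))) (by nlinarith [Λ1 k, Jκ k]) (by positivity)
    refine (mul_le_mul_of_nonneg_right r3 (by linarith [Jκ k])).trans ?_
    rw [mul_assoc]
    refine b3.trans ?_
    rw [← Real.exp_add]
    refine Real.exp_le_exp.2 ?_
    push_cast
    nlinarith [mul_nonneg a0 (show (0 : ℝ) ≤ 9 * k ^ 2 - (k + 1 + 1) ^ 2 by nlinarith)]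

end Vale.Agent.P092SL
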