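import Vale.Agent.P092ST.Rat
import Vale.Agent.P092CR.Form

/-!
P092 (helper22), block B3: the limit of the gauges and the strong tails.
-/

set_option linter.all false

open scoped InnerProductSpace ENNReal ComplexConjugate
open MeasureTheory Filter Topology

namespace Vale.Agent.P092SL

open Vale.Agent.P092ST Vale.Agent.P092ST.Amb

variable {G Γ 𝒦 : Type} [Group G] [TopologicalSpace G] [Group Γ] [NormedAddCommGroup 𝒦]
  [InnerProductSpace ℂ 𝒦] [CompleteSpace 𝒦] {A : Amb G Γ 𝒦}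

/-- a Cauchy sequence of gauges converges to a gauge -/
theorem lim_iso {ω : ℕ → 𝒦 →L[ℂ] 𝒦} (h : ∀ k, A.Iso (ω k)) (hc : CauchySeq fun k => ω k (A.Ω 0)) :
    ∃ ω', A.Iso ω' ∧ Tendsto (fun k => A.n2 (ω k - ω')) atTop (𝓝 0) := by
  obtain ⟨T, -, hT⟩ := P092CR.exists_lim (D := ⊤) (hyperfilter ℕ) (ι := fun _ => 1)
    (fun _ _ => tendsto_const_nhds) (A := ω) zero_le_one
    fun k v => (ω k).le_of_opNorm_le (h k).nrm v
  have hT : ∀ ξ η, Tendsto (fun k => ⟪ξ, ω k η⟫_ℂ) (hyperfilter ℕ) (𝓝 ⟪ξ, T η⟫_ℂ) :=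
    fun ξ η => hT ξ trivial η trivial
  obtain ⟨v, hv⟩ := cauchySeq_tendsto_of_complete hc
  have h0 : T (A.Ω 0) = v := ext_inner_left ℂ fun ξ => tendsto_nhds_unique (hT ξ _)
    ((tendsto_const_nhds.inner hv).mono_left Nat.hyperfilter_le_atTop)
  have hl : Tendsto (fun k => A.n2 (ω k - T)) atTop (𝓝 0) := by
    rw [← h0] at hv
    exact tendsto_iff_norm_sub_tendsto_zero.1 hv
  have d : A.Deg 1 T := deg_one_iff.2 fun w hw => ContinuousLinearMap.ext fun η =>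
    ext_inner_left ℂ fun ξ => by
      refine tendsto_nhds_unique (hT ξ (w η)) ?_
      change Tendsto _ _ (𝓝 ⟪ξ, w (T η)⟫_ℂ)
      rw [inner_mul w]
      refine (hT _ η).congr fun k => ?_
      rw [← inner_mul w]
      exact congrArg _ (DFunLike.congr_fun (deg_one_iff.1 (h k).deg w hw) η).symm
  have c : T * A.V 1 = T := ContinuousLinearMap.ext fun η => ext_inner_left ℂ fun ξ =>
    tendsto_nhds_unique (hT ξ (A.V 1 η)) ((hT ξ η).congr fun k =>
      congrArg _ (DFunLike.congr_fun (h k).col η).symm)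
  have n : ‖T‖ ≤ 1 := T.opNorm_le_bound zero_le_one fun η => by
    have h1 := le_of_tendsto' (hT (T η) η).norm fun k => (norm_inner_le_norm _ _).trans
      (mul_le_mul_of_nonneg_left ((ω k).le_of_opNorm_le (h k).nrm η) (norm_nonneg _))
    rw [inner_self_eq_norm_sq_to_K, norm_pow, RCLike.norm_ofReal, abs_norm, sq] at h1
    rcases (norm_nonneg (T η)).eq_or_lt with h2 | h2
    · rw [← h2]; positivity
    · exact le_of_mul_le_mul_left h1 h2
  have n1 : ‖T (A.Ω 0)‖ = 1 := by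
    rw [h0]
    exact tendsto_nhds_unique hv.norm (tendsto_const_nhds.congr fun k => ((h k).n2_eq).symm)
  refine ⟨T, ⟨d, (sub_eq_zero.1 (A.faith _ (deg_one_iff.1 ((d.star_mul d).sub (deg_V 1)))
    fun i => ?_))⟩, hl⟩
  cases i with
  | succ i => exact col_succ (col_sub (col_mul c _) (p_mul_V 1)) i
  | zero =>
    have h1 := norm_sub_sq (𝕜 := ℂ) (A.Ω 0) ((star T * T) (A.Ω 0))
    have h2 : ‖(star T * T) (A.Ω 0)‖ ≤ ‖T (A.Ω 0)‖ := ((star T).le_opNorm _).trans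
      (mul_le_of_le_one_left (norm_nonneg _) (by rwa [norm_star]))
    have h3 := re_star_mul T (A.Ω 0)
    rw [RCLike.re_to_complex, h3, n1, A.Ω_norm] at h1
    rw [n1] at h2
    change (star T * T) (A.Ω 0) - A.V 1 (A.Ω 0) = 0
    rw [A.Ω_zero, ← norm_eq_zero, norm_sub_rev]
    nlinarith [norm_nonneg ((star T * T) (A.Ω 0)), norm_nonneg (A.Ω 0 - (star T * T) (A.Ω 0))]

/-- change of gauge -/
theorem Two.gauge {ω ω' x : 𝒦 →L[ℂ] 𝒦} {g : G} {e : ℝ} (hω : A.Iso ω) (hω' : A.Iso ω')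
    (h : A.Two ω x g e) : A.Two ω' x g (e + 2 * A.n2 (ω - ω')) := by
  have d := hω.deg.sub hω'.deg
  have c := col_sub hω.col hω'.col
  have s := hs_col c
  have e1 : x - A.ζ ω' g = x - A.ζ ω g + ((ω - ω') * (A.V g * star ω) + ω' * A.V g * star (ω - ω')) := by
    rw [ζ, ζ, star_sub]; noncomm_ring
  have d1 : A.Deg g (A.V g * star ω) := (deg_V g).mul1 hω.deg.star1
  have s1 := s.mul_right d d1
  have s2 := (s.star d).mul (ω' * A.V g)
  refine ⟨h.deg, h.nrm, e1 ▸ h.hs.add (s1.add s2), ?_⟩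
  have b1 := s.hs_mul_right1 d d1 (norm_mul_le1 (norm_V g) hω.nrm')
  have b2 := (s.star d).hs_mul1 (norm_mul_le1 hω'.nrm (norm_V (A := A) g))
  rw [s.hs_star d] at b2
  rw [hs_eq_n2 c] at b1 b2
  rw [e1]
  linarith [h.hs.hs_add (s1.add s2), s1.hs_add s2, h.le]

theorem half_ev {κ : ℝ} (hκ : 0 < κ) : ∀ᶠ k : ℕ in atTop,
    2 * Real.exp (-Real.exp (κ * (k + 1 : ℕ))) ≤ Real.exp (-Real.exp (κ * k)) := by
  have h1 : Tendsto (fun k : ℕ => κ * (κ * k)) atTop atTop :=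
    (tendsto_natCast_atTop_atTop.const_mul_atTop hκ).const_mul_atTop hκ
  filter_upwards [h1.eventually_ge_atTop 1] with k hk
  have h2 : Real.exp (κ * k) + 1 ≤ Real.exp (κ * (k + 1 : ℕ)) := by
    push_cast
    rw [mul_add, mul_one, Real.exp_add]
    have a1 := Real.add_one_le_exp κ
    have a2 := Real.add_one_le_exp (κ * k)
    nlinarith [Real.exp_pos (κ * k)]
  have h3 := Real.exp_le_exp.2 (neg_le_neg h2)
  rw [neg_add, Real.exp_add, Real.exp_neg 1] at h3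
  have h4 : (Real.exp 1)⁻¹ ≤ 2⁻¹ := inv_anti₀ two_pos (by linarith [Real.add_one_le_exp (1 : ℝ)])
  nlinarith [Real.exp_pos (-Real.exp (κ * k))]

/-- **From the levels to the strong tails.** -/
theorem tails_of {ω : ℕ → 𝒦 →L[ℂ] 𝒦} (h : ∀ k, A.Iso (ω k)) {κ K : ℝ} (hκ : 0 < κ) (hK : 0 < K)
    (hd : ∀ᶠ k : ℕ in atTop, A.n2 (ω (k + 1) - ω k) ≤ Real.exp (-Real.exp (κ * k)))
    (hx : ∀ Q : Set G, IsCompact Q → ∀ᶠ k : ℕ in atTop, ∀ g ∈ Q, ∃ x,
      A.Two (ω k) x g (Real.exp (-Real.exp (κ * k))) ∧ A.Band (Real.exp (K * (k : ℝ) ^ 2)) x) :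
    A.Tails := by
  obtain ⟨k₀, h0⟩ := eventually_atTop.1 (hd.and (half_ev hκ))
  have tel : ∀ k, k₀ ≤ k → ∀ i, A.n2 (ω (k + i) - ω k) ≤
      2 * Real.exp (-Real.exp (κ * k)) - 2 * Real.exp (-Real.exp (κ * (k + i : ℕ))) := by
    intro k hk i
    induction i with
    | zero => simp [n2_zero]
    | succ i ih =>
      obtain ⟨a1, a2⟩ := h0 (k + i) (by omega)
      rw [← add_assoc]
      linarith [n2_tri (A := A) (ω (k + i + 1)) (ω (k + i)) (ω k)]
  have tel' : ∀ k, k₀ ≤ k → ∀ j, k ≤ j → A.n2 (ω j - ω k) ≤ 2 * Real.exp (-Real.exp (κ * k)) := by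
    intro k hk j hj
    obtain ⟨i, rfl⟩ := Nat.exists_eq_add_of_le hj
    linarith [tel k hk i, Real.exp_pos (-Real.exp (κ * (k + i : ℕ)))]
  have z : Tendsto (fun k : ℕ => 2 * Real.exp (-Real.exp (κ * k))) atTop (𝓝 0) := by
    simpa using (Real.tendsto_exp_neg_atTop_nhds_zero.comp (Real.tendsto_exp_atTop.comp
      (tendsto_natCast_atTop_atTop.const_mul_atTop hκ))).const_mul 2
  obtain ⟨ω', hω', hl⟩ := lim_iso h (Metric.cauchySeq_iff'.2 fun ε hε => by
    obtain ⟨k, hk, hk'⟩ := ((eventually_ge_atTop k₀).and (z.eventually (Iio_mem_nhds hε))).exists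
    exact ⟨k, fun j hj => by rw [dist_eq_norm]; exact (tel' k hk j hj).trans_lt hk'⟩)
  have cl : ∀ k, k₀ ≤ k → A.n2 (ω k - ω') ≤ 2 * Real.exp (-Real.exp (κ * k)) := by
    intro k hk
    have h1 := hl.const_add (2 * Real.exp (-Real.exp (κ * k)))
    rw [add_zero] at h1
    refine ge_of_tendsto h1 ((eventually_ge_atTop k).mono fun j hj => ?_)
    linarith [n2_tri (A := A) (ω k) (ω j) ω', tel' k hk j hj, n2_rev (A := A) (ω j) (ω k)]
  have sK : 0 < √K := Real.sqrt_pos.2 hK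
  refine ⟨ω', hω'.deg, hω'.iso, κ / (2 * √K), by positivity, fun Q hQ => ?_⟩
  have t1 : Tendsto (fun J : ℝ => √(Real.log J) / √K) atTop atTop :=
    (Real.tendsto_sqrt_atTop.comp Real.tendsto_log_atTop).atTop_div_const sK
  have t2 := tendsto_nat_floor_atTop.comp t1
  filter_upwards [t2.eventually (hx Q hQ), t2.eventually_ge_atTop k₀, eventually_ge_atTop 1,
    (t1.const_mul_atTop hκ).eventually_ge_atTop (2 * κ + 4)] with J a1 a2 a3 a4 g hg
  simp only [Function.comp_apply] at a1 a2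
  set s := √(Real.log J) / √K with hs
  have s0 : 0 ≤ s := by positivity
  obtain ⟨x, b1, b2⟩ := a1 g hg
  have b3 := Two.gauge (h _) hω' b1
  have l0 := Real.log_nonneg a3
  refine ⟨x, b1.deg, b2.mono ?_, b1.nrm, ?_⟩
  · rw [← Real.le_log_iff_exp_le (by linarith)]
    have c1 : K * s ^ 2 = Real.log J := by
      rw [hs, div_pow, Real.sq_sqrt l0, Real.sq_sqrt hK.le, mul_div_cancel₀ _ hK.ne']
    rw [← c1]
    exact mul_le_mul_of_nonneg_left (pow_le_pow_left₀ (Nat.cast_nonneg _) (Nat.floor_le s0) 2) hK.le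
  · have c1 : κ / (2 * √K) * √(Real.log J) = κ * s / 2 := by rw [hs]; field_simp
    rw [c1]
    change A.H2 (x - A.ζ ω' g) ≤ _
    rw [b3.hs.H2_eq]
    refine ENNReal.ofReal_le_ofReal (pow_le_pow_left₀ (hs_nonneg _) (b3.le.trans ?_) 2)
    have c2 : κ * s / 2 + 2 ≤ κ * (⌊s⌋₊ : ℝ) := by nlinarith [Nat.lt_floor_add_one s]
    have c3 : Real.exp (κ * s / 2) + 2 ≤ Real.exp (κ * (⌊s⌋₊ : ℝ)) := by
      refine le_trans ?_ (Real.exp_le_exp.2 c2)
      rw [Real.exp_add]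
      have d1 := Real.add_one_le_exp (2 : ℝ)
      have d2 := Real.one_le_exp (show 0 ≤ κ * s / 2 by positivity)
      nlinarith
    have c4 := Real.exp_le_exp.2 (neg_le_neg c3)
    rw [neg_add, Real.exp_add, Real.exp_neg 2] at c4
    have c5 : (Real.exp 2)⁻¹ ≤ 5⁻¹ :=
      inv_anti₀ (by norm_num) (by linarith [Real.quadratic_le_exp_of_nonneg (x := 2) zero_le_two])
    nlinarith [cl _ a2, Real.exp_pos (-Real.exp (κ * s / 2))]

end Vale.Agent.P092SL
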